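import Vale.Agent.DoubleDimer.Final

/-!
The convergence asked for in P155 Q1 fails, as posed, for every family of limit laws in which
almost surely all loops lie in the domain and there is at least one loop.
-/

open Set Filter Topology MeasureTheory Vale.Agent.DoubleDimer

/-- Let `ν Ω` be laws of loop collections (such as nested CLE_4 in `Ω`) which, for every bounded
simply connected domain `Ω`, almost surely have all their loops contained in `Ω` and have at
least one loop. Then it is false that for every bounded simply connected domain `Ω` and all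
Temperleyan approximations of `Ω` the double-dimer loops converge in law to `ν Ω`. -/
theorem Vale.Agent.Results.P155.IslandDisproof.result
    (ν : Set ℂ → ProbabilityMeasure LoopCollection)
    (hin : ∀ Ω, IsBddSimplyConnectedDomain Ω →
      ∀ᵐ Γ ∂(ν Ω : Measure LoopCollection), ∀ ℓ, Γ.mult ℓ ≠ 0 → ℓ.IsIn Ω)
    (hne : ∀ Ω, IsBddSimplyConnectedDomain Ω →
      ∀ᵐ Γ ∂(ν Ω : Measure LoopCollection), ∃ ℓ, Γ.mult ℓ ≠ 0) :
    ¬ ∀ Ω, IsBddSimplyConnectedDomain Ω → ∀ G : ℝ → TemperleyanGraph,
      IsTemperleyanApproximation G Ω → ConvergesInLaw G (ν Ω) :=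
  not_forall_convergesInLaw ν hin hne
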